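import Vale.Agent.P106.R.H466.Tame

/-!
# P106 / R / E8 : **[REP]** a pairwise box around the pieces is realised by random real boxes (helper466)
-/

set_option autoImplicit false

namespace Vale.Agent.P106.R.H466

open Filter Topology Finset Vale.Agent.P127 Vale.Agent.P127.Stk Vale.Agent.P127.U Vale.Agent.P127.U.Sys Vale.Agent.P106.R.C2
  Vale.Agent.P106.R.E Vale.Agent.P106.R.E8 Vale.Agent.P106.R.SIG
open Vale.Agent.P106.W (Cbx)

/-! ### the excess is a bounded supremum -/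

theorem fn_sig_N {K : ℕ} (F : Flg K) (c d : ℕ) : Sys.Fn (F.sig c d) (F.N c) := SIG.fn_sig_node F c d

theorem exc_bdd {K : ℕ} (F : Flg K) (hK : 1 ≤ K) {c : ℕ} (hc : c ≤ K) :
    BddAbove {v | ∃ (S' : Sys) (ex : Ext S' F.S) (W : S'.RV Cbx), F.InW ex c c W ∧
      v = S'.hc (ex.pull (F.N c)) (Sys.pr W (ex.pull (F.ball c))) - S'.av (F.lv c W)} := by
  refine ⟨F.S.h (F.N c), ?_⟩
  rintro v ⟨S', ex, W, hW, rfl⟩
  have t := tame_N F hK hc
  have h1 := hc_le_h (ex.tame t) (Sys.pr W (ex.pull (F.ball c)))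
  rw [ex.h] at h1
  have h2 : 0 ≤ S'.av (F.lv c W) := by
    unfold Sys.av
    refine const_le_ulim (UB.av (E3.lv_OL F hc ex W hW)) ?_
    filter_upwards [E3.lv_bd F hc ex W hW] with i hi
    refine div_nonneg ?_ (Nat.cast_nonneg _)
    have := (S'.P i).ex_mono (f := fun _ => 0) (g := F.lv c W i) (fun ω hω => (hi ω hω).1)
    rwa [(S'.P i).ex_const] at this
  linarith

theorem le_exc {K : ℕ} (F : Flg K) (hK : 1 ≤ K) {c : ℕ} (hc : c ≤ K) {S' : Sys} (ex : Ext S' F.S) (W : S'.RV Cbx)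
    (hW : F.InW ex c c W) :
    S'.hc (ex.pull (F.N c)) (Sys.pr W (ex.pull (F.ball c))) ≤ F.exc c + S'.av (F.lv c W) := by
  have := le_csSup (exc_bdd F hK hc) ⟨S', ex, W, hW, rfl⟩
  unfold Flg.exc
  linarith

/-! ### cells -/

/-- fineness of the cells of positions and slopes -/
noncomputable def d1 (C : ℝ) : ℝ := 4 * (C + 1) * dD C ^ 2

/-- fineness of the cells of the adapted coordinate -/
noncomputable def d2 (C : ℝ) : ℝ := 2 * dD C ^ 2

/-- the scaled coordinates of `m` with respect to `l₀` -/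
noncomputable def sc (C u2 H : ℝ) (l₀ m : Ry) : Fin 5 → ℝ :=
  ![(m.y 0 - l₀.y 0) * d1 C / u2, (m.y 1 - l₀.y 1) * d1 C / u2, (m.s 0 - l₀.s 0) * d1 C / u2, (m.s 1 - l₀.s 1) * d1 C / u2,
    dc l₀ m * d2 C / max (u2 ^ 2) H]

/-- bound of the scaled coordinates -/
noncomputable def nb (C : ℝ) : ℝ := (C + 1) * d1 C + (3 * C + 3) * d2 C

theorem d1_pos {C : ℝ} (hC : 1 ≤ C) : 0 < d1 C := by
  have := dD_one hC
  unfold d1
  positivity

theorem d2_pos {C : ℝ} (hC : 1 ≤ C) : 0 < d2 C := by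
  have := dD_one hC
  unfold d2
  positivity

theorem sc_le {C u1 u2 r H : ℝ} (hC : 1 ≤ C) (hr : 0 < r) (hrH : r ^ 2 ≤ H) (hu : r ≤ u2) {f : Fr} {l₀ l m : Ry}
    (hn : Near C f u1 u2 H l₀ l) (hc : Cl r H l m) (j : Fin 5) : |sc C u2 H l₀ m j| ≤ nb C := by
  obtain ⟨n1, n2, n3, -, -⟩ := hn
  obtain ⟨c1, c2, c3⟩ := hc
  have hu2 : 0 < u2 := hr.trans_le hu
  have hH : 0 < H := lt_of_lt_of_le (by positivity) hrH
  have hM : 0 < max (u2 ^ 2) H := lt_max_of_lt_right hH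
  have p1 := d1_pos hC
  have p2 := d2_pos hC
  have ky : ∀ k, |m.y k - l₀.y k| ≤ (C + 1) * u2 := by
    intro k
    have := abs_sub_le (m.y k) (l.y k) (l₀.y k)
    have := n1 k
    have := c1 k
    linarith
  have ks : ∀ k, |m.s k - l₀.s k| ≤ (C + 1) * u2 := by
    intro k
    have := abs_sub_le (m.s k) (l.s k) (l₀.s k)
    have := n2 k
    have := c2 k
    linarith
  have kd : |dc l₀ m| ≤ (3 * C + 3) * max (u2 ^ 2) H := by
    have e := dc_add l₀ l m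
    rw [Fin.sum_univ_two] at e
    have q : ∀ k, |(l.s k - l₀.s k) * (m.y k - l.y k)| ≤ C * max (u2 ^ 2) H := by
      intro k
      rw [abs_mul]
      calc |l.s k - l₀.s k| * |m.y k - l.y k| ≤ (C * u2) * u2 :=
            mul_le_mul (n2 k) ((c1 k).trans hu) (abs_nonneg _) (by positivity)
        _ = C * u2 ^ 2 := by ring
        _ ≤ C * max (u2 ^ 2) H := mul_le_mul_of_nonneg_left (le_max_left _ _) (by linarith)
    have h3 : 3 * H ≤ 3 * max (u2 ^ 2) H := mul_le_mul_of_nonneg_left (le_max_right _ _) (by norm_num)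
    rw [e]
    have x1 := abs_add_le (dc l₀ l + dc l m) ((l.s 0 - l₀.s 0) * (m.y 0 - l.y 0) + (l.s 1 - l₀.s 1) * (m.y 1 - l.y 1))
    have x2 := abs_add_le (dc l₀ l) (dc l m)
    have x3 := abs_add_le ((l.s 0 - l₀.s 0) * (m.y 0 - l.y 0)) ((l.s 1 - l₀.s 1) * (m.y 1 - l.y 1))
    linarith [q 0, q 1]
  have b1 : ∀ x : ℝ, |x| ≤ (C + 1) * u2 → |x * d1 C / u2| ≤ nb C := by
    intro x hx
    rw [abs_div, abs_mul, abs_of_pos hu2, abs_of_pos p1, div_le_iff₀ hu2]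
    unfold nb
    have h4 : |x| * d1 C ≤ (C + 1) * u2 * d1 C := mul_le_mul_of_nonneg_right hx p1.le
    have h5 : 0 ≤ (3 * C + 3) * d2 C * u2 := by positivity
    linarith
  have b2 : |dc l₀ m * d2 C / max (u2 ^ 2) H| ≤ nb C := by
    rw [abs_div, abs_mul, abs_of_pos hM, abs_of_pos p2, div_le_iff₀ hM]
    unfold nb
    have h4 : |dc l₀ m| * d2 C ≤ (3 * C + 3) * max (u2 ^ 2) H * d2 C := mul_le_mul_of_nonneg_right kd p2.le
    have h5 : 0 ≤ (C + 1) * d1 C * max (u2 ^ 2) H := by positivity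
    linarith
  fin_cases j
  · exact b1 _ (ky 0)
  · exact b1 _ (ky 1)
  · exact b1 _ (ks 0)
  · exact b1 _ (ks 1)
  · exact b2

/-- two rays in the same cell -/
theorem sc_cell {C u1 u2 r H : ℝ} (hC : 1 ≤ C) (hr : 0 < r) (hrH : r ^ 2 ≤ H) (hu : r ≤ u2) {f : Fr} {l₀ l₁ m₁ m : Ry}
    (hn : Near C f u1 u2 H l₀ l₁) (hc : Cl r H l₁ m₁) (he : ∀ j, |sc C u2 H l₀ m j - sc C u2 H l₀ m₁ j| ≤ 1) :
    (∀ k, |m.y k - m₁.y k| ≤ u2 / dD C) ∧ (∀ k, |m.s k - m₁.s k| ≤ u2 / dD C) ∧ |dc m₁ m| ≤ max ((u2 / dD C) ^ 2) H := by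
  obtain ⟨n1, n2, n3, -, -⟩ := hn
  obtain ⟨c1, c2, c3⟩ := hc
  have hu2 : 0 < u2 := hr.trans_le hu
  have hH : 0 < H := lt_of_lt_of_le (by positivity) hrH
  have hM : 0 < max (u2 ^ 2) H := lt_max_of_lt_right hH
  have p1 := d1_pos hC
  have p2 := d2_pos hC
  have pD := dD_one hC
  have pD0 : 0 < dD C := by linarith
  have a1 : ∀ x y : ℝ, |x * d1 C / u2 - y * d1 C / u2| ≤ 1 → |x - y| ≤ u2 / d1 C := by
    intro x y h
    rw [← sub_div, ← sub_mul, abs_div, abs_mul, abs_of_pos hu2, abs_of_pos p1, div_le_iff₀ hu2, one_mul] at h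
    rw [le_div_iff₀ p1]
    exact h
  have a2 : |dc l₀ m - dc l₀ m₁| ≤ max (u2 ^ 2) H / d2 C := by
    have h : |dc l₀ m * d2 C / max (u2 ^ 2) H - dc l₀ m₁ * d2 C / max (u2 ^ 2) H| ≤ 1 := he 4
    rw [← sub_div, ← sub_mul, abs_div, abs_mul, abs_of_pos hM, abs_of_pos p2, div_le_iff₀ hM, one_mul] at h
    rw [le_div_iff₀ p2]
    exact h
  have ky : ∀ k, |m.y k - m₁.y k| ≤ u2 / d1 C := by
    intro k
    fin_cases k
    · have := a1 _ _ (he 0)
      rwa [sub_sub_sub_cancel_right] at this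
    · have := a1 _ _ (he 1)
      rwa [sub_sub_sub_cancel_right] at this
  have ks : ∀ k, |m.s k - m₁.s k| ≤ u2 / d1 C := by
    intro k
    fin_cases k
    · have := a1 _ _ (he 2)
      rwa [sub_sub_sub_cancel_right] at this
    · have := a1 _ _ (he 3)
      rwa [sub_sub_sub_cancel_right] at this
  have hd : u2 / d1 C ≤ u2 / dD C := by
    refine div_le_div_of_nonneg_left hu2.le pD0 ?_
    unfold d1
    nlinarith [mul_pos (by linarith : 0 < C + 1) pD0]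
  refine ⟨fun k => (ky k).trans hd, fun k => (ks k).trans hd, ?_⟩
  have k1 : ∀ k, |m₁.s k - l₀.s k| ≤ (C + 1) * u2 := by
    intro k
    have := abs_sub_le (m₁.s k) (l₁.s k) (l₀.s k)
    have := n2 k
    have := c2 k
    linarith
  have q : ∀ k, |(m₁.s k - l₀.s k) * (m.y k - m₁.y k)| ≤ u2 ^ 2 / (4 * dD C ^ 2) := by
    intro k
    rw [abs_mul]
    calc |m₁.s k - l₀.s k| * |m.y k - m₁.y k| ≤ ((C + 1) * u2) * (u2 / d1 C) :=
          mul_le_mul (k1 k) (ky k) (abs_nonneg _) (by positivity)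
      _ = u2 ^ 2 / (4 * dD C ^ 2) := by
        unfold d1
        have : C + 1 ≠ 0 := by linarith
        field_simp
  have e := dc_add l₀ m₁ m
  rw [Fin.sum_univ_two] at e
  have e1 : dc m₁ m = (dc l₀ m - dc l₀ m₁) - ((m₁.s 0 - l₀.s 0) * (m.y 0 - m₁.y 0) + (m₁.s 1 - l₀.s 1) * (m.y 1 - m₁.y 1)) := by
    linarith
  have h1 : |dc m₁ m| ≤ max (u2 ^ 2) H / (dD C ^ 2) := by
    rw [e1]
    have x1 := abs_sub (dc l₀ m - dc l₀ m₁) ((m₁.s 0 - l₀.s 0) * (m.y 0 - m₁.y 0) + (m₁.s 1 - l₀.s 1) * (m.y 1 - m₁.y 1))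
    have x3 := abs_add_le ((m₁.s 0 - l₀.s 0) * (m.y 0 - m₁.y 0)) ((m₁.s 1 - l₀.s 1) * (m.y 1 - m₁.y 1))
    have e2 : max (u2 ^ 2) H / d2 C = max (u2 ^ 2) H / (dD C ^ 2) / 2 := by unfold d2; field_simp
    have e3 : u2 ^ 2 / (4 * dD C ^ 2) ≤ max (u2 ^ 2) H / (dD C ^ 2) / 4 := by
      have : u2 ^ 2 / (4 * dD C ^ 2) = u2 ^ 2 / (dD C ^ 2) / 4 := by field_simp
      rw [this]
      have h5 : u2 ^ 2 / dD C ^ 2 ≤ max (u2 ^ 2) H / dD C ^ 2 := div_le_div_of_nonneg_right (le_max_left _ _) (by positivity)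
      linarith
    rw [e2] at a2
    linarith [q 0, q 1]
  refine h1.trans ?_
  rw [div_le_iff₀ (by positivity)]
  refine max_le ?_ ?_
  · calc u2 ^ 2 = (u2 / dD C) ^ 2 * dD C ^ 2 := by field_simp
      _ ≤ max ((u2 / dD C) ^ 2) H * dD C ^ 2 := mul_le_mul_of_nonneg_right (le_max_left _ _) (by positivity)
  · have h6 : 1 ≤ dD C ^ 2 := one_le_pow₀ pD
    calc H = H * 1 := by ring
      _ ≤ max ((u2 / dD C) ^ 2) H * dD C ^ 2 := mul_le_mul (le_max_right _ _) h6 (by norm_num) (hH.le.trans (le_max_right _ _))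

/-! ### volumes -/

/-- relative volume of a box of widths `u1, u2` -/
noncomputable def rv (n c : ℕ) (H u1 u2 : ℝ) : ℝ := u1 * u2 / ((1 / 2 : ℝ) ^ (c * n)) ^ 2 * max 1 (u2 ^ 2 / H)

theorem one_le_rv {n c : ℕ} {H u1 u2 : ℝ} (h1 : (1 / 2 : ℝ) ^ (c * n) ≤ u1) (h2 : u1 ≤ u2) : 1 ≤ rv n c H u1 u2 := by
  have hp : (0 : ℝ) < (1 / 2 : ℝ) ^ (c * n) := by positivity
  have h3 : 1 ≤ u1 * u2 / ((1 / 2 : ℝ) ^ (c * n)) ^ 2 := by
    rw [le_div_iff₀ (by positivity), one_mul, sq]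
    exact mul_le_mul h1 (h1.trans h2) hp.le (hp.le.trans h1)
  exact one_le_mul_of_one_le_of_one_le h3 (le_max_left _ _)

theorem rv_le {n c h : ℕ} {u1 u2 : ℝ} (h0 : 0 < u1) (h2 : u1 ≤ u2) (h3 : u2 ≤ 1) : rv n c (W.hh n h c) u1 u2 ≤ 2 ^ (4 * c * n) := by
  have hp : (0 : ℝ) < (1 / 2 : ℝ) ^ (c * n) := by positivity
  have hu2 : 0 < u2 := h0.trans_le h2
  have h4 : u1 * u2 / ((1 / 2 : ℝ) ^ (c * n)) ^ 2 ≤ 2 ^ (2 * c * n) := by
    rw [div_le_iff₀ (by positivity)]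
    have e : (2 : ℝ) ^ (2 * c * n) * ((1 / 2 : ℝ) ^ (c * n)) ^ 2 = 1 := by
      rw [← pow_mul, one_div, inv_pow]
      have : c * n * 2 = 2 * c * n := by ring
      rw [this]
      exact mul_inv_cancel₀ (by positivity)
    rw [e]
    exact mul_le_one₀ (h2.trans h3) hu2.le h3
  have h5 : max 1 (u2 ^ 2 / W.hh n h c) ≤ 2 ^ (2 * c * n) := by
    refine max_le (one_le_pow₀ (by norm_num)) ?_
    unfold W.hh
    rw [div_div_eq_mul_div]
    rw [div_le_iff₀ (by positivity)]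
    have g1 : u2 ^ 2 ≤ 1 := pow_le_one₀ hu2.le h3
    have g2 : (1 : ℝ) ≤ 2 ^ (h * n) := one_le_pow₀ (by norm_num)
    have g3 : (0 : ℝ) < 2 ^ (2 * c * n) := by positivity
    calc u2 ^ 2 * 2 ^ (2 * c * n) ≤ 1 * 2 ^ (2 * c * n) := mul_le_mul_of_nonneg_right g1 g3.le
      _ = 2 ^ (2 * c * n) * 1 := by ring
      _ ≤ 2 ^ (2 * c * n) * 2 ^ (h * n) := mul_le_mul_of_nonneg_left g2 g3.le
  unfold rv
  calc _ ≤ (2 : ℝ) ^ (2 * c * n) * 2 ^ (2 * c * n) := by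
        refine mul_le_mul h4 h5 ?_ (by positivity)
        exact zero_le_one.trans (le_max_left _ _)
    _ = 2 ^ (4 * c * n) := by
        rw [← pow_add]
        congr 1
        ring

theorem vol_le {n c : ℕ} {C H u1 u2 : ℝ} (hH : 0 < H) {B : Cbx} (b1 : B.u1 * B.u2 ≤ aA C * (u1 * u2)) (b0 : 0 < B.u1)
    (b2 : 0 < B.u2) (b3 : B.u2 ≤ u2) : B.vol ((1 / 2 : ℝ) ^ (c * n)) H ≤ aA C * rv n c H u1 u2 := by
  have hp : (0 : ℝ) < ((1 / 2 : ℝ) ^ (c * n)) ^ 2 := by positivity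
  have h1 : B.u1 * B.u2 / ((1 / 2 : ℝ) ^ (c * n)) ^ 2 ≤ aA C * (u1 * u2) / ((1 / 2 : ℝ) ^ (c * n)) ^ 2 :=
    div_le_div_of_nonneg_right b1 hp.le
  have h2 : max 1 (B.u2 ^ 2 / H) ≤ max 1 (u2 ^ 2 / H) :=
    max_le_max le_rfl (div_le_div_of_nonneg_right (pow_le_pow_left₀ b2.le b3 2) hH.le)
  have h3 : 0 < B.u1 * B.u2 := mul_pos b0 b2
  calc B.vol ((1 / 2 : ℝ) ^ (c * n)) H = B.u1 * B.u2 / ((1 / 2 : ℝ) ^ (c * n)) ^ 2 * max 1 (B.u2 ^ 2 / H) := rfl
    _ ≤ aA C * (u1 * u2) / ((1 / 2 : ℝ) ^ (c * n)) ^ 2 * max 1 (u2 ^ 2 / H) :=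
        mul_le_mul h1 h2 (zero_le_one.trans (le_max_left _ _)) (div_nonneg (h3.le.trans b1) hp.le)
    _ = aA C * rv n c H u1 u2 := by unfold rv; ring

theorem Okb_of {K : ℕ} (F : Flg K) {c d : ℕ} (hcd : c ≤ d) (i : ℕ) {B : Cbx}
    (h : B.ok (1 / 8) ((1 / 2 : ℝ) ^ mm F c d i) (Hc F c i)) : Okb (F.s i) (F.n i) c c B := by
  have e1 : (2 : ℝ) ^ (c * F.n i) / 2 ^ (2 * c * F.n i) = (1 / 2 : ℝ) ^ (c * F.n i) := by
    have : 2 * c * F.n i = c * F.n i + c * F.n i := by ring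
    rw [this, pow_add, one_div, inv_pow]
    field_simp
  have e2 : W.hh (F.n i) (F.s i).h c = Hc F c i := by
    rw [F.hs i]
    rfl
  have h1 : (1 / 2 : ℝ) ^ (c * F.n i) ≤ (1 / 2 : ℝ) ^ mm F c d i := by
    refine pow_le_pow_of_le_one (by norm_num) (by norm_num) ?_
    exact Nat.mul_le_mul_right _ (by omega)
  refine ⟨?_, h.u12, h.u2, h.α2, h.κ2, ?_, ?_⟩
  · rw [e1]
    exact h1.trans h.r1
  · rw [e2]
    exact h.αH
  · rw [e2]
    exact h.κH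

theorem law_pos {Ω : Type} [Fintype Ω] (P : Law Ω) : ∃ ω, 0 < P.w ω := by
  by_contra h
  push Not at h
  have h1 : ∑ ω, P.w ω ≤ 0 := Finset.sum_nonpos fun ω _ => h ω
  rw [P.sum_one] at h1
  linarith

/-- **[REP]** -/
theorem stREP : StREP := by
  intro K F c d hK hc hcd hd hdK hw S' ex T V f u1 u2 C hPB
  classical
  have hcK : c ≤ K := hcd.trans hdK
  have tN := tame_N F hK hcK
  have tN' := ex.tame tN
  have hne : ∀ i, Nonempty (S'.Ω i) := fun i => by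
    obtain ⟨ω, -⟩ := law_pos (S'.P i)
    exact ⟨ω⟩
  have : Nonempty Cbx := ⟨⟨0, 0, 0, 0, 0, fun _ => 0, fun _ => 0, 0⟩⟩
  let rep : ∀ i, T → S'.Ω i := fun i v => @Classical.epsilon _ (hne i) (fun ω => 0 < (S'.P i).w ω ∧ V i ω = v)
  have hrep : ∀ i ω, 0 < (S'.P i).w ω → 0 < (S'.P i).w (rep i (V i ω)) ∧ V i (rep i (V i ω)) = V i ω := by
    intro i ω hω
    exact @Classical.epsilon_spec_aux _ (hne i) (fun ω' => 0 < (S'.P i).w ω' ∧ V i ω' = V i ω) ⟨ω, hω, rfl⟩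
  let cell : S'.RV (Fin 5 → ℤ) := fun i ω j =>
    ⌊sc C (u2 i ω) (Hc F c i) (pray F c d i (ex.π i (rep i (V i ω)))) (nray F c i (ex.π i ω)) j⌋
  let Q : ∀ i, T → (Fin 5 → ℤ) → Cbx → Prop := fun i v e B => ∀ ω, 0 < (S'.P i).w ω → V i ω = v → cell i ω = e →
    Okb (F.s i) (F.n i) c c B ∧ InP (F.s i) (F.n i) c B (F.N c i (ex.π i ω)) ∧
      bvol (F.s i) (F.n i) c B ≤ aA C * rv (F.n i) c (Hc F c i) (u1 i ω) (u2 i ω)
  let Wb : S'.RV Cbx := fun i ω => Classical.epsilon (Q i (V i ω) (cell i ω))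
  have key : ∀ᶠ i in (uf : Filter ℕ), ∀ ω, 0 < (S'.P i).w ω → Q i (V i ω) (cell i ω) (Wb i ω) := by
    filter_upwards [hPB.near, hPB.ok] with i hn hok ω₁ hω₁
    refine Classical.epsilon_spec (p := Q i (V i ω₁) (cell i ω₁)) ?_
    have hr : (0:ℝ) < (1 / 2 : ℝ) ^ mm F c d i := by positivity
    have hrH := sq_le_H F hcd hd hw i
    have hH := Hc_pos F c i
    have ok₁ := hok ω₁ hω₁
    have hC := one_le_C ok₁
    have cl : ∀ ω, 0 < (S'.P i).w ω → Cl ((1 / 2 : ℝ) ^ mm F c d i) (Hc F c i) (pray F c d i (ex.π i ω)) (nray F c i (ex.π i ω)) :=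
      fun ω hω => cl_near F hcd hd hdK hw (ex.w_pos i hω)
    obtain ⟨B, b1, b2, b3, b4, b5, b6⟩ := exists_box ok₁ hr hrH (cl ω₁ hω₁)
    refine ⟨B, fun ω hω eV ec => ?_⟩
    obtain ⟨x1, x2, x3, x4⟩ := hn ω₁ ω hω₁ hω eV.symm
    have okω := hok ω hω
    rw [← x1, ← x2, x3] at okω
    obtain ⟨r1, r2⟩ := hrep i ω₁ hω₁
    obtain ⟨y1, y2, y3, y4⟩ := hn _ ω₁ r1 hω₁ r2
    rw [y2] at y4
    have hu : (1 / 2 : ℝ) ^ mm F c d i ≤ u2 i ω₁ := ok₁.2.2.2.2.2.2.1.trans ok₁.2.2.2.2.2.2.2.1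
    obtain ⟨z1, z2, z3⟩ := sc_cell (m := nray F c i (ex.π i ω)) hC hr hrH hu y4 (cl ω₁ hω₁) (by
      intro j
      have e1 : ⌊sc C (u2 i ω) (Hc F c i) (pray F c d i (ex.π i (rep i (V i ω)))) (nray F c i (ex.π i ω)) j⌋ =
        ⌊sc C (u2 i ω₁) (Hc F c i) (pray F c d i (ex.π i (rep i (V i ω₁)))) (nray F c i (ex.π i ω₁)) j⌋ := congrFun ec j
      rw [eV, ← x2] at e1
      exact (Int.abs_sub_lt_one_of_floor_eq_floor e1).le)
    have hin := b6 _ _ okω x4 (cl ω hω) z1 z2 z3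
    refine ⟨Okb_of F hcd i b1, ?_, ?_⟩
    · have e2 : W.hh (F.n i) (F.s i).h c = Hc F c i := by
        rw [F.hs i]
        rfl
      have e3 : (nray F c i (ex.π i ω)).U - ∑ k, (nray F c i (ex.π i ω)).y k * (nray F c i (ex.π i ω)).s k =
          pz (F.s i) (F.n i) c (F.N c i (ex.π i ω)) := by
        show pz (F.s i) (F.n i) c (F.N c i (ex.π i ω)) + _ - _ = _
        exact add_sub_cancel_right _ _
      rw [e3] at hin
      unfold InP
      rw [e2]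
      exact hin
    · have e2 : W.hh (F.n i) (F.s i).h c = Hc F c i := by
        rw [F.hs i]
        rfl
      unfold bvol
      rw [e2, ← x1, ← x2]
      exact vol_le hH b2 b3 b4 b5
  have hInW : F.InW ex c c Wb := by
    filter_upwards [key] with i hi ω hω
    obtain ⟨a1, a2, -⟩ := hi ω hω ω hω rfl rfl
    exact ⟨a1, a2⟩
  have hexc := le_exc F hK hcK ex Wb hInW
  -- the cells are of zero entropy
  let N : ℤ := ⌈nb C⌉₊
  let M : Finset (Fin 5 → ℤ) := Fintype.piFinset fun _ : Fin 5 => Finset.Icc (-(N + 1)) (N + 1)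
  have hcl : ∀ᶠ i in (uf : Filter ℕ), ∀ ω, 0 < (S'.P i).w ω → cell i ω ∈ M := by
    filter_upwards [hPB.near, hPB.ok] with i hn hok ω hω
    have hr : (0:ℝ) < (1 / 2 : ℝ) ^ mm F c d i := by positivity
    have hrH := sq_le_H F hcd hd hw i
    have ok := hok ω hω
    have hC := one_le_C ok
    have hu : (1 / 2 : ℝ) ^ mm F c d i ≤ u2 i ω := ok.2.2.2.2.2.2.1.trans ok.2.2.2.2.2.2.2.1
    obtain ⟨r1, r2⟩ := hrep i ω hω
    obtain ⟨y1, y2, y3, y4⟩ := hn _ ω r1 hω r2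
    rw [y2] at y4
    rw [Fintype.mem_piFinset]
    intro j
    have h1 := sc_le hC hr hrH hu y4 (cl_near F hcd hd hdK hw (ex.w_pos i hω)) j
    have h2 : nb C ≤ (N : ℝ) := by
      have := Nat.le_ceil (nb C)
      exact_mod_cast this
    have h3 := abs_le.1 (h1.trans h2)
    rw [Finset.mem_Icc]
    constructor
    · refine Int.le_floor.2 ?_
      push_cast
      exact le_trans (by linarith) h3.1
    · refine (Int.floor_le_floor h3.2).trans ?_
      rw [Int.floor_intCast]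
      omega
  have hlog : ∀ {β : Type} (Y : S'.RV β), ∀ᶠ i in (uf : Filter ℕ), Stk.hc (S'.P i) (cell i) (Y i) ≤ Real.log M.card := by
    intro β Y
    filter_upwards [hcl] with i hi
    exact Stk.hc_le_log (S'.P i) _ _ _ fun ω _ => ⟨M, le_rfl, fun ω' h' _ => hi ω' h'⟩
  have tC : Tame cell := tame_of_hc tN' _ (hlog (ex.pull (F.N c)))
  have h1 : S'.hc (ex.pull (F.sig c d)) (Sys.pr V (ex.pull (F.ball c))) ≤ S'.hc (ex.pull (F.N c)) (Sys.pr V (ex.pull (F.ball c))) := by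
    refine Sys.hc_mono_left tN' (ex.tame (SIG.tame_sig F d tN)) ?_
    filter_upwards [fn_sig_N F c d] with i hi ω ω' hω hω' e
    exact hi _ _ (ex.w_pos i hω) (ex.w_pos i hω') (congrArg Prod.fst e)
  have h2 := hc_le_add tN' tC (Sys.pr V (ex.pull (F.ball c)))
  have h3 : S'.hc cell (Sys.pr V (ex.pull (F.ball c))) = 0 := hc_zero_of_le _ (hlog _)
  have h4 : S'.hc (ex.pull (F.N c)) (Sys.pr cell (Sys.pr V (ex.pull (F.ball c)))) ≤
      S'.hc (ex.pull (F.N c)) (Sys.pr Wb (ex.pull (F.ball c))) := by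
    refine hc_mono_right tN' (Eventually.of_forall fun i ω ω' _ _ e => ?_)
    have e1 : cell i ω = cell i ω' := congrArg Prod.fst e
    have e2 : V i ω = V i ω' := congrArg (fun q => q.2.1) e
    have e3 : ex.pull (F.ball c) i ω = ex.pull (F.ball c) i ω' := congrArg (fun q => q.2.2) e
    refine Prod.ext ?_ e3
    show Classical.epsilon (Q i (V i ω) (cell i ω)) = Classical.epsilon (Q i (V i ω') (cell i ω'))
    rw [e1, e2]
  -- the volumes
  have hrv : ∀ᶠ i in (uf : Filter ℕ), ∀ ω, 0 < (S'.P i).w ω → 1 ≤ rv (F.n i) c (Hc F c i) (u1 i ω) (u2 i ω) ∧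
      rv (F.n i) c (Hc F c i) (u1 i ω) (u2 i ω) ≤ 2 ^ (4 * c * F.n i) := by
    filter_upwards [hPB.ok] with i hok ω hω
    have ok := hok ω hω
    have hr : (0:ℝ) < (1 / 2 : ℝ) ^ mm F c d i := by positivity
    obtain ⟨-, -, -, -, -, -, g1, g2, g3⟩ := ok
    have g0 : (1 / 2 : ℝ) ^ (c * F.n i) ≤ u1 i ω := by
      refine le_trans ?_ g1
      refine pow_le_pow_of_le_one (by norm_num) (by norm_num) ?_
      exact Nat.mul_le_mul_right _ (by omega)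
    exact ⟨one_le_rv g0 g2, rv_le (hr.trans_le g1) g2 g3⟩
  have hlv := E3.lv_OL F hcK ex Wb hInW
  have hol : Sys.OL (S := S') (fun i ω => lvol (F.n i) c (Hc F c i) (u1 i ω) (u2 i ω)) := by
    refine ⟨4, ?_⟩
    filter_upwards [hrv] with i hi ω hω
    obtain ⟨k1, k2⟩ := hi ω hω
    show |Real.logb 2 (rv (F.n i) c (Hc F c i) (u1 i ω) (u2 i ω))| ≤ 4 * S'.L i
    have k3 : 0 ≤ Real.logb 2 (rv (F.n i) c (Hc F c i) (u1 i ω) (u2 i ω)) := Real.logb_nonneg (by norm_num) k1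
    have k4 : Real.logb 2 (rv (F.n i) c (Hc F c i) (u1 i ω) (u2 i ω)) ≤ ((4 * c * F.n i : ℕ) : ℝ) := by
      have := Real.logb_le_logb_of_le (b := 2) (by norm_num) (by linarith) k2
      rwa [Real.logb_pow, Real.logb_self_eq_one (by norm_num), mul_one] at this
    rw [abs_of_nonneg k3]
    refine k4.trans ?_
    have k5 : S'.L i = K * F.n i := by rw [ex.L_eq]; exact F.L_eq i
    rw [k5]
    have k6 : 4 * c * F.n i ≤ 4 * (K * F.n i) := by
      rw [mul_assoc]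
      exact Nat.mul_le_mul_left _ (Nat.mul_le_mul_right _ hcK)
    exact_mod_cast k6
  have hlam : Tendsto (fun i => Real.logb 2 (aA C) / (S'.L i : ℝ)) (uf : Filter ℕ) (𝓝 0) :=
    (tendsto_natCast_atTop_atTop.comp S'.Ltop).const_div_atTop _
  have h5 : S'.av (F.lv c Wb) ≤ S'.av (fun i ω => lvol (F.n i) c (Hc F c i) (u1 i ω) (u2 i ω)) := by
    refine ulim_le_of_sub (UB.av hlv) (UB.av hol) hlam ?_
    filter_upwards [key, hPB.ok, hrv, hInW] with i hi hok hv hin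
    rw [← add_div]
    refine div_le_div_of_nonneg_right ?_ (Nat.cast_nonneg _)
    have e3 := (S'.P i).ex_mono (f := F.lv c Wb i)
      (g := fun ω => lvol (F.n i) c (Hc F c i) (u1 i ω) (u2 i ω) + Real.logb 2 (aA C)) (by
        intro ω hω
        obtain ⟨-, -, a3⟩ := hi ω hω ω hω rfl rfl
        have a1 := (hin ω hω).1
        have hC := one_le_C (hok ω hω)
        have p1 := aA_one hC
        have p2 := (hv ω hω).1
        have p3 := E3.one_le_bvol a1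
        show Real.logb 2 (bvol (F.s i) (F.n i) c (Wb i ω)) ≤
          Real.logb 2 (rv (F.n i) c (Hc F c i) (u1 i ω) (u2 i ω)) + Real.logb 2 (aA C)
        rw [add_comm, ← Real.logb_mul (by linarith) (by linarith)]
        exact Real.logb_le_logb_of_le (by norm_num) (by linarith) a3)
    rw [(S'.P i).ex_add, (S'.P i).ex_const] at e3
    exact e3
  linarith

end Vale.Agent.P106.R.H466
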