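import Vale.Agent.P106.R.E8.Ray
import Vale.Agent.P106.R.E3.E3
import Vale.Agent.P106.R.SIG.Sig
import Vale.Agent.P122.K931.Zero

/-!
# P106 / R / E8 : a pair box is realised by a real box, geometry (helper466)

* `Cl` two rays are close: radius `r`, thickness `H`.
* `sig_near0` : the ray of the plank `N c` is close to the ray of the piece `sig c d`.
* `exists_box` : rays near `l₁` (pair box with frame `f₁`) in a small cell are in one real box of the class `1/8`.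
* `tame_N` : the planks are tame.
-/

set_option autoImplicit false

namespace Vale.Agent.P106.R.H466

open Filter Topology Finset Vale.Agent.P127 Vale.Agent.P127.Stk Vale.Agent.P127.U Vale.Agent.P127.U.Sys Vale.Agent.P106.R.C2
  Vale.Agent.P106.R.E Vale.Agent.P106.R.E8 Vale.Agent.P106.R.SIG
open Vale.Agent.P106.W (Cbx)

/-- two close rays -/
def Cl (r H : ℝ) (l m : Ry) : Prop := (∀ k, |m.y k - l.y k| ≤ r) ∧ (∀ k, |m.s k - l.s k| ≤ r) ∧ |dc l m| ≤ 3 * H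

theorem n_le {C : ℝ} (hC : 1 ≤ C) {a b : ℝ} (h : a ^ 2 + b ^ 2 ≤ C) : |a| ≤ C ∧ |b| ≤ C := by
  constructor
  · refine abs_le_of_sq_le_sq ?_ (by linarith)
    nlinarith [sq_nonneg b]
  · refine abs_le_of_sq_le_sq ?_ (by linarith)
    nlinarith [sq_nonneg a]

theorem one_le_C {C : ℝ} {f : Fr} {u1 u2 r H : ℝ} (h : OkF C f u1 u2 r H) : 1 ≤ C := by
  obtain ⟨h1, h2, -⟩ := h
  have h0 : 0 ≤ f.n 0 ^ 2 + f.n 1 ^ 2 := by positivity
  have hC : 0 < C := by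
    by_contra hn
    push Not at hn
    nlinarith
  by_contra hn
  push Not at hn
  nlinarith

/-- values of `G` at close rays -/
theorem G_close {C : ℝ} {f : Fr} {u1 u2 r H : ℝ} (ok : OkF C f u1 u2 r H) (hr : 0 < r) (hrH : r ^ 2 ≤ H) {l m : Ry}
    (cl : Cl r H l m) : |GA f l m| ≤ 13 * C * u1 ∧ |GB f l m| ≤ 13 * C * u1 := by
  have hC := one_le_C ok
  obtain ⟨h1, h2, h3, h4, h5, h6, h7, h8, h9⟩ := ok
  obtain ⟨c1, c2, c3⟩ := cl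
  obtain ⟨n0, n1⟩ := n_le hC h2
  have hH : 0 < H := lt_of_lt_of_le (by positivity) hrH
  have hu1 : 0 < u1 := hr.trans_le h7
  have a0 := c1 0
  have a1 := c1 1
  have b0 := c2 0
  have b1 := c2 1
  have sq0 : ∀ x : ℝ, |x| ≤ r → x ^ 2 ≤ r ^ 2 := fun x hx => sq_le_sq' (abs_le.1 hx).1 (abs_le.1 hx).2
  have np : ∀ a x : ℝ, |a| ≤ C → |x| ≤ r → |a * x| ≤ C * u1 := by
    intro a x ha hx
    rw [abs_mul]
    exact mul_le_mul ha (hx.trans h7) (abs_nonneg _) (by linarith)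
  have g1 : |f.κ * dc l m| ≤ 3 * (C * u1) := by
    rw [abs_mul]
    calc |f.κ| * |dc l m| ≤ |f.κ| * (3 * H) := mul_le_mul_of_nonneg_left c3 (abs_nonneg _)
      _ = 3 * (|f.κ| * H) := by ring
      _ ≤ 3 * (C * u1) := by linarith
  have Q : ∀ x y : ℝ, |x| ≤ r → |y| ≤ r → |x ^ 2 + y ^ 2| ≤ 2 * H := by
    intro x y hx hy
    rw [abs_of_nonneg (by positivity)]
    linarith [sq0 x hx, sq0 y hy]
  have P : ∀ x y x' y' : ℝ, |x| ≤ r → |y| ≤ r → |x'| ≤ r → |y'| ≤ r → |x * x' + y * y'| ≤ 2 * H := by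
    intro x y x' y' hx hy hx' hy'
    have e1 : |x * x'| ≤ r ^ 2 := by
      rw [abs_mul, sq]
      exact mul_le_mul hx hx' (abs_nonneg _) hr.le
    have e2 : |y * y'| ≤ r ^ 2 := by
      rw [abs_mul, sq]
      exact mul_le_mul hy hy' (abs_nonneg _) hr.le
    exact (abs_add_le _ _).trans (by linarith)
  constructor
  · have e : GA f l m = f.n 0 * (m.y 0 - l.y 0) + f.n 1 * (m.y 1 - l.y 1) + f.κ * dc l m -
        f.α * ((m.y 0 - l.y 0) ^ 2 + (m.y 1 - l.y 1) ^ 2) := by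
      simp only [GA, Fin.sum_univ_two]
    have g2 : |f.α * ((m.y 0 - l.y 0) ^ 2 + (m.y 1 - l.y 1) ^ 2)| ≤ 2 * (C * u1) := by
      rw [abs_mul]
      calc |f.α| * |(m.y 0 - l.y 0) ^ 2 + (m.y 1 - l.y 1) ^ 2| ≤ |f.α| * (2 * H) :=
            mul_le_mul_of_nonneg_left (Q _ _ a0 a1) (abs_nonneg _)
        _ = 2 * (|f.α| * H) := by ring
        _ ≤ 2 * (C * u1) := by linarith
    rw [e]
    have k0 := np _ _ n0 a0
    have k1 := np _ _ n1 a1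
    have x1 := abs_add_le (f.n 0 * (m.y 0 - l.y 0)) (f.n 1 * (m.y 1 - l.y 1))
    have x2 := abs_add_le (f.n 0 * (m.y 0 - l.y 0) + f.n 1 * (m.y 1 - l.y 1)) (f.κ * dc l m)
    have x3 := abs_sub (f.n 0 * (m.y 0 - l.y 0) + f.n 1 * (m.y 1 - l.y 1) + f.κ * dc l m)
      (f.α * ((m.y 0 - l.y 0) ^ 2 + (m.y 1 - l.y 1) ^ 2))
    have : 0 ≤ C * u1 := by positivity
    linarith
  · have e : GB f l m = f.n 0 * (m.s 0 - l.s 0) + f.n 1 * (m.s 1 - l.s 1) +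
        f.κ * ((m.s 0 - l.s 0) ^ 2 + (m.s 1 - l.s 1) ^ 2) / 2 +
        2 * f.α * (dc l m - ((m.y 0 - l.y 0) * (m.s 0 - l.s 0) + (m.y 1 - l.y 1) * (m.s 1 - l.s 1))) := by
      simp only [GB, Fin.sum_univ_two]
    have g2 : |f.κ * ((m.s 0 - l.s 0) ^ 2 + (m.s 1 - l.s 1) ^ 2) / 2| ≤ C * u1 := by
      rw [mul_div_assoc, abs_mul]
      have : |((m.s 0 - l.s 0) ^ 2 + (m.s 1 - l.s 1) ^ 2) / 2| ≤ H := by
        rw [abs_div, abs_of_pos (by norm_num : (0:ℝ) < 2), div_le_iff₀ (by norm_num)]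
        linarith [Q _ _ b0 b1]
      exact (mul_le_mul_of_nonneg_left this (abs_nonneg _)).trans h5
    have g3 : |2 * f.α * (dc l m - ((m.y 0 - l.y 0) * (m.s 0 - l.s 0) + (m.y 1 - l.y 1) * (m.s 1 - l.s 1)))| ≤ 10 * (C * u1) := by
      rw [abs_mul, abs_mul, abs_of_pos (by norm_num : (0:ℝ) < 2)]
      have : |dc l m - ((m.y 0 - l.y 0) * (m.s 0 - l.s 0) + (m.y 1 - l.y 1) * (m.s 1 - l.s 1))| ≤ 5 * H := by
        refine (abs_sub _ _).trans ?_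
        linarith [P _ _ _ _ a0 a1 b0 b1]
      calc 2 * |f.α| * |dc l m - ((m.y 0 - l.y 0) * (m.s 0 - l.s 0) + (m.y 1 - l.y 1) * (m.s 1 - l.s 1))| ≤ 2 * |f.α| * (5 * H) :=
            mul_le_mul_of_nonneg_left this (by positivity)
        _ = 10 * (|f.α| * H) := by ring
        _ ≤ 10 * (C * u1) := by linarith
    rw [e]
    have k0 := np _ _ n0 b0
    have k1 := np _ _ n1 b1
    have x1 := abs_add_le (f.n 0 * (m.s 0 - l.s 0)) (f.n 1 * (m.s 1 - l.s 1))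
    have x2 := abs_add_le (f.n 0 * (m.s 0 - l.s 0) + f.n 1 * (m.s 1 - l.s 1)) (f.κ * ((m.s 0 - l.s 0) ^ 2 + (m.s 1 - l.s 1) ^ 2) / 2)
    have x3 := abs_add_le (f.n 0 * (m.s 0 - l.s 0) + f.n 1 * (m.s 1 - l.s 1) + f.κ * ((m.s 0 - l.s 0) ^ 2 + (m.s 1 - l.s 1) ^ 2) / 2)
      (2 * f.α * (dc l m - ((m.y 0 - l.y 0) * (m.s 0 - l.s 0) + (m.y 1 - l.y 1) * (m.s 1 - l.s 1))))
    have : 0 ≤ C * u1 := by positivity
    linarith

/-- cells are `dD C` times smaller than the box -/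
noncomputable def dD (C : ℝ) : ℝ := 16 * C ^ 2

/-- thickness of the real box -/
noncomputable def eE (C : ℝ) : ℝ := 54 * C ^ 2

/-- loss of volume -/
noncomputable def aA (C : ℝ) : ℝ := 864 * C ^ 4

theorem dD_one {C : ℝ} (hC : 1 ≤ C) : 1 ≤ dD C := by
  have hC2 : 1 ≤ C ^ 2 := one_le_pow₀ hC
  unfold dD; linarith

theorem eE_one {C : ℝ} (hC : 1 ≤ C) : 1 ≤ eE C := by
  have hC2 : 1 ≤ C ^ 2 := one_le_pow₀ hC
  unfold eE; linarith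

theorem aA_eq (C : ℝ) : aA C = eE C * dD C := by unfold aA eE dD; ring

theorem aA_one {C : ℝ} (hC : 1 ≤ C) : 1 ≤ aA C := by
  rw [aA_eq]
  have h1 := dD_one hC
  have h2 := eE_one hC
  nlinarith

/-- the transported normal is not short -/
theorem norm_low {C : ℝ} {f₁ : Fr} {u1 u2 r H : ℝ} (ok : OkF C f₁ u1 u2 r H) (hr : 0 < r) (hrH : r ^ 2 ≤ H) {l₁ m₁ : Ry}
    (cl₁ : Cl r H l₁ m₁) (hcase : aA C * u1 ≤ u2) :
    1 / (2 * C) ≤ (f₁.tr l₁ m₁).n 0 ^ 2 + (f₁.tr l₁ m₁).n 1 ^ 2 := by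
  have hC := one_le_C ok
  have G1 := G_close ok hr hrH cl₁
  obtain ⟨h1, h2, h3, h4, h5, h6, h7, h8, h9⟩ := ok
  have hu1 : 0 < u1 := hr.trans_le h7
  have hC0 : 0 < C := by linarith
  have hA := aA_one hC
  have hκ : |f₁.κ| * u1 ≤ C / aA C := by
    rw [le_div_iff₀ (by linarith)]
    calc |f₁.κ| * u1 * aA C = |f₁.κ| * (aA C * u1) := by ring
      _ ≤ |f₁.κ| * u2 := mul_le_mul_of_nonneg_left hcase (abs_nonneg _)
      _ ≤ C := h3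
  have hα : |f₁.α| * u1 ≤ C / aA C := by
    rw [le_div_iff₀ (by linarith)]
    calc |f₁.α| * u1 * aA C = |f₁.α| * (aA C * u1) := by ring
      _ ≤ |f₁.α| * u2 := mul_le_mul_of_nonneg_left hcase (abs_nonneg _)
      _ ≤ C := h4
  have k1 : |f₁.κ * GB f₁ l₁ m₁| ≤ 13 * C * (C / aA C) := by
    rw [abs_mul]
    calc |f₁.κ| * |GB f₁ l₁ m₁| ≤ |f₁.κ| * (13 * C * u1) := mul_le_mul_of_nonneg_left G1.2 (abs_nonneg _)
      _ = 13 * C * (|f₁.κ| * u1) := by ring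
      _ ≤ 13 * C * (C / aA C) := mul_le_mul_of_nonneg_left hκ (by positivity)
  have k2 : |f₁.α * GA f₁ l₁ m₁| ≤ 13 * C * (C / aA C) := by
    rw [abs_mul]
    calc |f₁.α| * |GA f₁ l₁ m₁| ≤ |f₁.α| * (13 * C * u1) := mul_le_mul_of_nonneg_left G1.1 (abs_nonneg _)
      _ = 13 * C * (|f₁.α| * u1) := by ring
      _ ≤ 13 * C * (C / aA C) := mul_le_mul_of_nonneg_left hα (by positivity)
  have k3 : 78 * C * (C / aA C) ≤ 1 / (2 * C) := by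
    unfold aA
    rw [le_div_iff₀ (by positivity)]
    have e : 78 * C * (C / (864 * C ^ 4)) * (2 * C) = 156 / 864 * (1 / C) := by field_simp; norm_num
    rw [e]
    have : 1 / C ≤ 1 := by rw [div_le_one hC0]; exact hC
    linarith
  have e1 : 1 / C ≤ f₁.n 0 ^ 2 + f₁.n 1 ^ 2 := by
    rw [div_le_iff₀ hC0]
    linarith
  have e2 : 1 / C = 1 / (2 * C) + 1 / (2 * C) := by field_simp; ring
  rw [tr_sq f₁ l₁ m₁]
  linarith [(abs_le.1 k1).1, (abs_le.1 k2).2]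

/-- values of `G` at the second plank, centred at the first plank -/
theorem G_pair {C : ℝ} {f₁ : Fr} {u1 u2 r H : ℝ} (ok : OkF C f₁ u1 u2 r H) (hr : 0 < r) (hrH : r ^ 2 ≤ H) {l₁ m₁ : Ry}
    (cl₁ : Cl r H l₁ m₁) {l m : Ry} (okl : OkF C (f₁.tr l₁ l) u1 u2 r H) (hnear : Near C f₁ u1 u2 H l₁ l) (clm : Cl r H l m) :
    |GA (f₁.tr l₁ m₁) m₁ m| ≤ 27 * C * u1 ∧ |GB (f₁.tr l₁ m₁) m₁ m| ≤ 27 * C * u1 := by
  have G1 := G_close ok hr hrH cl₁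
  have G2 := G_close okl hr hrH clm
  constructor
  · have e1 := GA_add f₁ l₁ m₁ m
    have e2 := GA_add f₁ l₁ l m
    have e3 : GA (f₁.tr l₁ m₁) m₁ m = GA f₁ l₁ l + GA (f₁.tr l₁ l) l m - GA f₁ l₁ m₁ := by linarith
    rw [e3]
    have x1 := abs_sub (GA f₁ l₁ l + GA (f₁.tr l₁ l) l m) (GA f₁ l₁ m₁)
    have x2 := abs_add_le (GA f₁ l₁ l) (GA (f₁.tr l₁ l) l m)
    have x3 := hnear.2.2.2.1
    linarith [G1.1, G2.1]
  · have e1 := GB_add f₁ l₁ m₁ m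
    have e2 := GB_add f₁ l₁ l m
    have e3 : GB (f₁.tr l₁ m₁) m₁ m = GB f₁ l₁ l + GB (f₁.tr l₁ l) l m - GB f₁ l₁ m₁ := by linarith
    rw [e3]
    have x1 := abs_sub (GB f₁ l₁ l + GB (f₁.tr l₁ l) l m) (GB f₁ l₁ m₁)
    have x2 := abs_add_le (GB f₁ l₁ l) (GB (f₁.tr l₁ l) l m)
    have x3 := hnear.2.2.2.2
    linarith [G1.2, G2.2]

theorem ry_eta (m : Ry) : (⟨m.y, m.s, m.U - ∑ k, m.y k * m.s k + ∑ k, m.y k * m.s k⟩ : Ry) = m := by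
  rw [sub_add_cancel]

theorem exists_box_thin {C : ℝ} {f₁ : Fr} {u1 u2 r H : ℝ} (ok : OkF C f₁ u1 u2 r H) (hr : 0 < r) (hrH : r ^ 2 ≤ H) {l₁ m₁ : Ry}
    (cl₁ : Cl r H l₁ m₁) (hcase : aA C * u1 ≤ u2) :
    ∃ B : Cbx, B.ok (1 / 8) r H ∧ B.u1 * B.u2 ≤ aA C * (u1 * u2) ∧ 0 < B.u1 ∧ 0 < B.u2 ∧ B.u2 ≤ u2 ∧
      ∀ l m : Ry, OkF C (f₁.tr l₁ l) u1 u2 r H → Near C f₁ u1 u2 H l₁ l → Cl r H l m →
        (∀ k, |m.y k - m₁.y k| ≤ u2 / dD C) → (∀ k, |m.s k - m₁.s k| ≤ u2 / dD C) →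
        |dc m₁ m| ≤ max ((u2 / dD C) ^ 2) H → B.In H m.y m.s (m.U - ∑ k, m.y k * m.s k) := by
  have hC := one_le_C ok
  have hlow := norm_low ok hr hrH cl₁ hcase
  obtain ⟨h1, h2, h3, h4, h5, h6, h7, h8, h9⟩ := id ok
  have hH : 0 < H := lt_of_lt_of_le (by positivity) hrH
  have hu1 : 0 < u1 := hr.trans_le h7
  have hu2 : 0 < u2 := hu1.trans_le h8
  have hC0 : 0 < C := by linarith
  have hD := dD_one hC
  have hE := eE_one hC
  have hAe := aA_eq C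
  have hD0 : 0 < dD C := by linarith
  set g := f₁.tr l₁ m₁ with hg
  have hX0 : 0 < g.n 0 ^ 2 + g.n 1 ^ 2 := lt_of_lt_of_le (by positivity) hlow
  set L := Real.sqrt (g.n 0 ^ 2 + g.n 1 ^ 2) with hL
  have hL0 : 0 < L := Real.sqrt_pos.2 hX0
  have hLs : L ^ 2 = g.n 0 ^ 2 + g.n 1 ^ 2 := Real.sq_sqrt hX0.le
  have hLi : 1 / L ≤ 2 * C := by
    rw [div_le_iff₀ hL0]
    by_contra hn
    push Not at hn
    have h10 : (2 * C * L) ^ 2 < 1 := by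
      have : 0 ≤ 2 * C * L := by positivity
      nlinarith
    have h11 : (2 * C * L) ^ 2 = 4 * C ^ 2 * L ^ 2 := by ring
    rw [h11, hLs] at h10
    have h12 : 4 * C ^ 2 * (1 / (2 * C)) ≤ 4 * C ^ 2 * (g.n 0 ^ 2 + g.n 1 ^ 2) :=
      mul_le_mul_of_nonneg_left hlow (by positivity)
    have h13 : 4 * C ^ 2 * (1 / (2 * C)) = 2 * C := by field_simp; ring
    linarith
  obtain ⟨θ, hc, hs⟩ := W.exists_angle (x := g.n 1 / L) (y := -(g.n 0) / L) (by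
    rw [div_pow, div_pow, hLs, ← add_div, div_eq_one_iff_eq hX0.ne']; ring)
  have efr : (⟨![-Real.sin θ, Real.cos θ], f₁.κ / L, f₁.α / L⟩ : Fr) = g.sm (1 / L) := by
    apply Fr.ext'
    · show -Real.sin θ = 1 / L * g.n 0
      rw [hs]; ring
    · show Real.cos θ = 1 / L * g.n 1
      rw [hc]; ring
    · show f₁.κ / L = 1 / L * f₁.κ
      ring
    · show f₁.α / L = 1 / L * f₁.α
      ring
  have hinv : ∀ x : ℝ, |x / L| ≤ 2 * C * |x| := by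
    intro x
    rw [abs_div, abs_of_pos hL0, div_eq_mul_one_div, mul_comm]
    exact mul_le_mul_of_nonneg_right hLi (abs_nonneg _)
  have frc : ∀ x : ℝ, |x| * u2 ≤ C → |x / L| * (u2 / dD C) ≤ 1 / 8 := by
    intro x hx
    calc |x / L| * (u2 / dD C) ≤ (2 * C * |x|) * (u2 / dD C) := mul_le_mul_of_nonneg_right (hinv x) (by positivity)
      _ = 2 * C * (|x| * u2) / dD C := by ring
      _ ≤ 2 * C * C / dD C := by gcongr
      _ = 1 / 8 := by unfold dD; field_simp; norm_num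
  have frH : ∀ x : ℝ, |x| * H ≤ C * u1 → |x / L| * H ≤ eE C * u1 := by
    intro x hx
    calc |x / L| * H ≤ (2 * C * |x|) * H := mul_le_mul_of_nonneg_right (hinv x) hH.le
      _ = 2 * C * (|x| * H) := by ring
      _ ≤ 2 * C * (C * u1) := mul_le_mul_of_nonneg_left hx (by positivity)
      _ = 2 * C ^ 2 * u1 := by ring
      _ ≤ eE C * u1 := by
        unfold eE
        refine mul_le_mul_of_nonneg_right ?_ hu1.le
        nlinarith [sq_nonneg C]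
  have fin : ∀ x : ℝ, |x| ≤ 27 * C * u1 → |1 / L * x| ≤ eE C * u1 := by
    intro x hx
    rw [abs_mul, abs_of_pos (by positivity : 0 < 1 / L)]
    calc 1 / L * |x| ≤ 2 * C * (27 * C * u1) := mul_le_mul hLi hx (abs_nonneg _) (by positivity)
      _ = eE C * u1 := by unfold eE; ring
  refine ⟨⟨θ, eE C * u1, u2 / dD C, f₁.κ / L, f₁.α / L, m₁.y, m₁.s, m₁.U - ∑ k, m₁.y k * m₁.s k⟩,
    ⟨?_, ?_, ?_, frc _ h4, frc _ h3, frH _ h6, frH _ h5⟩, ?_, ?_, ?_, ?_, ?_⟩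
  · show r ≤ eE C * u1
    nlinarith
  · show eE C * u1 ≤ u2 / dD C
    rw [le_div_iff₀ hD0]
    calc eE C * u1 * dD C = aA C * u1 := by rw [hAe]; ring
      _ ≤ u2 := hcase
  · show u2 / dD C ≤ 1
    exact (div_le_self hu2.le hD).trans h9
  · show eE C * u1 * (u2 / dD C) ≤ aA C * (u1 * u2)
    have e1 : eE C * u1 * (u2 / dD C) = (eE C / dD C) * (u1 * u2) := by ring
    rw [e1]
    refine mul_le_mul_of_nonneg_right ?_ (by positivity)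
    rw [div_le_iff₀ hD0, hAe]
    have h20 : 1 ≤ dD C * dD C := by nlinarith
    calc eE C = eE C * 1 := by ring
      _ ≤ eE C * (dD C * dD C) := mul_le_mul_of_nonneg_left h20 (by linarith)
      _ = eE C * dD C * dD C := by ring
  · show 0 < eE C * u1
    have : 0 < eE C := by linarith
    positivity
  · show 0 < u2 / dD C
    positivity
  · exact div_le_self hu2.le hD
  · intro l m okl hnear clm hy hs' hdc
    obtain ⟨gA, gB⟩ := G_pair ok hr hrH cl₁ okl hnear clm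
    rw [in_iff, ry_eta m]
    have eray : cray ⟨θ, eE C * u1, u2 / dD C, f₁.κ / L, f₁.α / L, m₁.y, m₁.s, m₁.U - ∑ k, m₁.y k * m₁.s k⟩ = m₁ := ry_eta m₁
    have ecfr : cfr ⟨θ, eE C * u1, u2 / dD C, f₁.κ / L, f₁.α / L, m₁.y, m₁.s, m₁.U - ∑ k, m₁.y k * m₁.s k⟩ = g.sm (1 / L) := efr
    rw [eray, ecfr, GA_sm, GB_sm]
    exact ⟨hy, hs', hdc, fin _ gA, fin _ gB⟩

theorem exists_box_ball {C : ℝ} {f₁ : Fr} {u1 u2 r H : ℝ} (ok : OkF C f₁ u1 u2 r H) (hr : 0 < r) (hrH : r ^ 2 ≤ H) {m₁ : Ry}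
    (hcase : u2 < aA C * u1) :
    ∃ B : Cbx, B.ok (1 / 8) r H ∧ B.u1 * B.u2 ≤ aA C * (u1 * u2) ∧ 0 < B.u1 ∧ 0 < B.u2 ∧ B.u2 ≤ u2 ∧
      ∀ m : Ry, (∀ k, |m.y k - m₁.y k| ≤ u2 / dD C) → (∀ k, |m.s k - m₁.s k| ≤ u2 / dD C) →
        |dc m₁ m| ≤ max ((u2 / dD C) ^ 2) H → B.In H m.y m.s (m.U - ∑ k, m.y k * m.s k) := by
  have hC := one_le_C ok
  obtain ⟨h1, h2, h3, h4, h5, h6, h7, h8, h9⟩ := id ok
  have hH : 0 < H := lt_of_lt_of_le (by positivity) hrH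
  have hu1 : 0 < u1 := hr.trans_le h7
  have hu2 : 0 < u2 := hu1.trans_le h8
  have hD := dD_one hC
  have hD0 : 0 < dD C := by linarith
  refine ⟨⟨0, u2, u2, 0, 0, m₁.y, m₁.s, m₁.U - ∑ k, m₁.y k * m₁.s k⟩, ⟨h7.trans h8, le_rfl, h9, ?_, ?_, ?_, ?_⟩, ?_, hu2, hu2, le_rfl, ?_⟩
  · show |(0:ℝ)| * u2 ≤ 1 / 8
    simp
  · show |(0:ℝ)| * u2 ≤ 1 / 8
    simp
  · show |(0:ℝ)| * H ≤ u2
    simp [hu2.le]
  · show |(0:ℝ)| * H ≤ u2
    simp [hu2.le]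
  · show u2 * u2 ≤ aA C * (u1 * u2)
    nlinarith
  · intro m hy hs' hdc
    have hd : u2 / dD C ≤ u2 := div_le_self hu2.le hD
    have hd0 : 0 ≤ u2 / dD C := by positivity
    rw [in_iff, ry_eta m]
    have eray : cray ⟨0, u2, u2, 0, 0, m₁.y, m₁.s, m₁.U - ∑ k, m₁.y k * m₁.s k⟩ = m₁ := ry_eta m₁
    rw [eray]
    have eA : GA (cfr ⟨0, u2, u2, 0, 0, m₁.y, m₁.s, m₁.U - ∑ k, m₁.y k * m₁.s k⟩) m₁ m = m.y 1 - m₁.y 1 := by
      simp [GA, cfr, Fin.sum_univ_two]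
    have eB : GB (cfr ⟨0, u2, u2, 0, 0, m₁.y, m₁.s, m₁.U - ∑ k, m₁.y k * m₁.s k⟩) m₁ m = m.s 1 - m₁.s 1 := by
      simp [GB, cfr, Fin.sum_univ_two]
    rw [eA, eB]
    refine ⟨fun k => (hy k).trans hd, fun k => (hs' k).trans hd, hdc.trans ?_, (hy 1).trans hd, (hs' 1).trans hd⟩
    exact max_le_max (pow_le_pow_left₀ hd0 hd 2) le_rfl

/-- **one real box for the rays of a cell** -/
theorem exists_box {C : ℝ} {f₁ : Fr} {u1 u2 r H : ℝ} (ok : OkF C f₁ u1 u2 r H) (hr : 0 < r) (hrH : r ^ 2 ≤ H) {l₁ m₁ : Ry}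
    (cl₁ : Cl r H l₁ m₁) : ∃ B : Cbx, B.ok (1 / 8) r H ∧ B.u1 * B.u2 ≤ aA C * (u1 * u2) ∧ 0 < B.u1 ∧ 0 < B.u2 ∧ B.u2 ≤ u2 ∧
      ∀ l m : Ry, OkF C (f₁.tr l₁ l) u1 u2 r H → Near C f₁ u1 u2 H l₁ l → Cl r H l m →
        (∀ k, |m.y k - m₁.y k| ≤ u2 / dD C) → (∀ k, |m.s k - m₁.s k| ≤ u2 / dD C) →
        |dc m₁ m| ≤ max ((u2 / dD C) ^ 2) H → B.In H m.y m.s (m.U - ∑ k, m.y k * m.s k) := by
  rcases le_or_gt (aA C * u1) u2 with h | h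
  · exact exists_box_thin ok hr hrH cl₁ h
  · obtain ⟨B, b1, b2, b3, b4, b5, b6⟩ := exists_box_ball ok hr hrH (m₁ := m₁) h
    exact ⟨B, b1, b2, b3, b4, b5, fun l m _ _ _ x1 x2 x3 => b6 m x1 x2 x3⟩

end Vale.Agent.P106.R.H466
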