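import Vale.Agent.P106.R.H466.Box

/-!
# P106 / R / E8 : the ray of the plank and the ray of the piece; the planks are tame (helper466)
-/

set_option autoImplicit false

namespace Vale.Agent.P106.R.H466

open Filter Topology Finset Vale.Agent.P127 Vale.Agent.P127.Stk Vale.Agent.P127.U Vale.Agent.P127.U.Sys Vale.Agent.P106.R.C2
  Vale.Agent.P106.R.E Vale.Agent.P106.R.E8 Vale.Agent.P106.R.SIG
open Vale.Agent.P106.W (Cbx)

variable {K : ℕ} (F : Flg K)

theorem pow_mm {c d : ℕ} (hcd : c ≤ d) (hd : d ≤ 2 * c) (i : ℕ) :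
    (2:ℝ) ^ (c * F.n i) = 2 ^ ((d - c) * F.n i) * 2 ^ mm F c d i := by
  unfold mm
  rw [← pow_add, ← add_mul]
  congr 2
  omega

theorem Hc_pos (c i : ℕ) : 0 < Hc F c i := by
  unfold Hc W.hh
  positivity

/-- `r² ≤ H` -/
theorem sq_le_H {c d : ℕ} (hcd : c ≤ d) (hd : d ≤ 2 * c) (hw : 2 * (d - c) ≤ F.h) (i : ℕ) :
    ((1 / 2 : ℝ) ^ mm F c d i) ^ 2 ≤ Hc F c i := by
  unfold Hc W.hh
  rw [le_div_iff₀ (by positivity)]
  have e1 : ((1 / 2 : ℝ) ^ mm F c d i) ^ 2 * 2 ^ (2 * c * F.n i) = 2 ^ (2 * (d - c) * F.n i) := by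
    have e2 : (2:ℝ) ^ (2 * c * F.n i) = 2 ^ (2 * (d - c) * F.n i) * (2 ^ mm F c d i) ^ 2 := by
      unfold mm
      rw [← pow_mul, ← pow_add]
      congr 1
      have : 2 * c = 2 * (d - c) + (2 * c - d) * 2 := by omega
      calc 2 * c * F.n i = (2 * (d - c) + (2 * c - d) * 2) * F.n i := by rw [← this]
        _ = _ := by ring
    rw [e2, one_div, inv_pow]
    field_simp
  rw [e1]
  exact pow_le_pow_right₀ (by norm_num) (Nat.mul_le_mul_right _ hw)

/-- the ray of the plank is close to the ray of the piece -/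
theorem cl_near {c d : ℕ} (hcd : c ≤ d) (hd : d ≤ 2 * c) (hdK : d ≤ K) (hw : 2 * (d - c) ≤ F.h) {i : ℕ} {ω : F.S.Ω i}
    (hω : 0 < (F.S.P i).w ω) : Cl ((1 / 2 : ℝ) ^ mm F c d i) (Hc F c i) (pray F c d i ω) (nray F c i ω) := by
  have hcK : c ≤ K := hcd.trans hdK
  have hsq := sq_le_H F hcd hd hw i
  have hH := Hc_pos F c i
  set n := F.n i with hn
  set S := F.N c i ω with hS
  set G := F.sig c d i ω with hG
  have pm : (0:ℝ) < 2 ^ mm F c d i := by positivity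
  have pd : (0:ℝ) < 2 ^ ((d - c) * n) := by positivity
  have pz' : (0:ℤ) < 2 ^ ((d - c) * n) := by positivity
  have pc : (2:ℝ) ^ (c * n) = 2 ^ ((d - c) * n) * 2 ^ mm F c d i := pow_mm F hcd hd i
  -- the difference of a coordinate
  have dv : ∀ x : ℤ, 0 ≤ (x : ℝ) / 2 ^ (c * n) - ((x / 2 ^ ((d - c) * n) : ℤ) : ℝ) / 2 ^ mm F c d i ∧
      (x : ℝ) / 2 ^ (c * n) - ((x / 2 ^ ((d - c) * n) : ℤ) : ℝ) / 2 ^ mm F c d i ≤ (1 / 2 : ℝ) ^ mm F c d i := by
    intro x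
    have a1 := Int.mul_ediv_self_le (x := x) (k := 2 ^ ((d - c) * n)) pz'.ne'
    have a2 := Int.lt_mul_ediv_self_add (x := x) (k := 2 ^ ((d - c) * n)) pz'
    have b1 : (2:ℝ) ^ ((d - c) * n) * ((x / 2 ^ ((d - c) * n) : ℤ) : ℝ) ≤ x := by exact_mod_cast a1
    have b2 : (x : ℝ) ≤ 2 ^ ((d - c) * n) * ((x / 2 ^ ((d - c) * n) : ℤ) : ℝ) + 2 ^ ((d - c) * n) := by exact_mod_cast a2.le
    have e : (x : ℝ) / 2 ^ (c * n) - ((x / 2 ^ ((d - c) * n) : ℤ) : ℝ) / 2 ^ mm F c d i =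
        ((x : ℝ) - 2 ^ ((d - c) * n) * ((x / 2 ^ ((d - c) * n) : ℤ) : ℝ)) / (2 ^ ((d - c) * n) * 2 ^ mm F c d i) := by
      rw [pc]; field_simp
    rw [e]
    constructor
    · exact div_nonneg (by linarith) (by positivity)
    · rw [one_div, inv_pow, div_le_iff₀ (by positivity)]
      have e3 : (2 ^ mm F c d i : ℝ)⁻¹ * (2 ^ ((d - c) * n) * 2 ^ mm F c d i) = 2 ^ ((d - c) * n) := by field_simp
      rw [e3]
      linarith
  have es : ∀ k, F.s i c S.τ k = (S.τ k : ℝ) / 2 ^ (c * n) := fun k => cone_s (F.slp i) c S.τ k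
  have my : ∀ k, (nray F c i ω).y k = (S.o k : ℝ) / 2 ^ (c * n) := fun _ => rfl
  have ms : ∀ k, (nray F c i ω).s k = (S.τ k : ℝ) / 2 ^ (c * n) := es
  have ly : ∀ k, (pray F c d i ω).y k = ((S.o k / 2 ^ ((d - c) * n) : ℤ) : ℝ) / 2 ^ mm F c d i := fun _ => rfl
  have ls : ∀ k, (pray F c d i ω).s k = ((S.τ k / 2 ^ ((d - c) * n) : ℤ) : ℝ) / 2 ^ mm F c d i := fun _ => rfl
  have hy : ∀ k, |(nray F c i ω).y k - (pray F c d i ω).y k| ≤ (1 / 2 : ℝ) ^ mm F c d i := by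
    intro k
    rw [my, ly, abs_of_nonneg (dv _).1]
    exact (dv _).2
  have hs : ∀ k, |(nray F c i ω).s k - (pray F c d i ω).s k| ≤ (1 / 2 : ℝ) ^ mm F c d i := by
    intro k
    rw [ms, ls, abs_of_nonneg (dv _).1]
    exact (dv _).2
  refine ⟨hy, hs, ?_⟩
  -- the adapted coordinate
  set X : ℝ := (∑ k, (-((2:ℝ) ^ (d * n) * ((S.o k / 2 ^ ((d - c) * n) : ℤ) : ℝ)) *
      (W.s0 n (2 * c - d) (fun k => S.τ k / 2 ^ ((d - c) * n)) k - W.s0 n c S.τ k) +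
    (S.T : ℝ) * 2 ^ (2 * c * n) *
      (W.s0 n (2 * c - d) (fun k => S.τ k / 2 ^ ((d - c) * n)) k ^ 2 - W.s0 n c S.τ k ^ 2) / 2)) / 2 ^ (F.h * n) with hX
  have hf1 := Int.floor_le X
  have hf2 := Int.lt_floor_add_one X
  have gw : (G.w : ℝ) = S.w + ⌊X⌋ := by
    have : G.w = S.w + ⌊X⌋ := rfl
    rw [this]
    push_cast
    rfl
  have eH : Hc F c i = 2 ^ (F.h * n) / 2 ^ (2 * c * n) := rfl
  have hh : (F.s i).h = F.h := F.hs i
  have e2 : (2:ℝ) ^ (2 * c * n) = 2 ^ (d * n) * 2 ^ mm F c d i := by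
    unfold mm
    rw [← pow_add, ← add_mul]
    congr 2
    omega
  have XH : X * Hc F c i = ∑ k, (-((pray F c d i ω).y k) * ((pray F c d i ω).s k - (nray F c i ω).s k) +
      (S.T : ℝ) * ((pray F c d i ω).s k ^ 2 - (nray F c i ω).s k ^ 2) / 2) := by
    have s1 : ∀ k, W.s0 n (2 * c - d) (fun k => S.τ k / 2 ^ ((d - c) * n)) k = (pray F c d i ω).s k := fun _ => rfl
    have s2 : ∀ k, W.s0 n c S.τ k = (nray F c i ω).s k := fun k => (ms k).symm
    have p1 : (0:ℝ) < 2 ^ (F.h * n) := by positivity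
    have p2 : (0:ℝ) < 2 ^ (2 * c * n) := by positivity
    have e3 : X * Hc F c i = (∑ k, (-((2:ℝ) ^ (d * n) * ((S.o k / 2 ^ ((d - c) * n) : ℤ) : ℝ)) *
      (W.s0 n (2 * c - d) (fun k => S.τ k / 2 ^ ((d - c) * n)) k - W.s0 n c S.τ k) +
      (S.T : ℝ) * 2 ^ (2 * c * n) *
      (W.s0 n (2 * c - d) (fun k => S.τ k / 2 ^ ((d - c) * n)) k ^ 2 - W.s0 n c S.τ k ^ 2) / 2)) / 2 ^ (2 * c * n) := by
      rw [hX, eH]
      have gen : ∀ Y a b : ℝ, 0 < a → 0 < b → Y / a * (a / b) = Y / b := by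
        intro Y a b ha hb
        field_simp
      exact gen _ _ _ p1 p2
    rw [e3, Finset.sum_div]
    refine Finset.sum_congr rfl fun k _ => ?_
    rw [s1, s2, ly k, e2]
    have p3 : (0:ℝ) < 2 ^ (d * n) := by positivity
    field_simp
  have eU : (pray F c d i ω).U = (G.w : ℝ) * Hc F c i - (S.T : ℝ) * (∑ k, (pray F c d i ω).s k ^ 2) / 2 +
      ∑ k, (pray F c d i ω).y k * (pray F c d i ω).s k := rfl
  have eV : (nray F c i ω).U = (S.w : ℝ) * Hc F c i - (S.T : ℝ) * (∑ k, (nray F c i ω).s k ^ 2) / 2 +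
      ∑ k, (nray F c i ω).y k * (nray F c i ω).s k := by
    show pz (F.s i) n c S + _ = _
    unfold pz
    rw [hh, eH, mul_div_assoc]
    rfl
  have key : dc (pray F c d i ω) (nray F c i ω) =
      ((nray F c i ω).y 0 - (pray F c d i ω).y 0) * ((nray F c i ω).s 0 - (pray F c d i ω).s 0) +
      ((nray F c i ω).y 1 - (pray F c d i ω).y 1) * ((nray F c i ω).s 1 - (pray F c d i ω).s 1) +
      (X - ⌊X⌋) * Hc F c i := by
    unfold dc
    rw [eU, eV, gw]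
    rw [Fin.sum_univ_two] at XH
    simp only [Fin.sum_univ_two]
    linear_combination -XH
  rw [key]
  set r := (1 / 2 : ℝ) ^ mm F c d i with hr
  have r0 : 0 < r := by positivity
  have q : ∀ k, |((nray F c i ω).y k - (pray F c d i ω).y k) * ((nray F c i ω).s k - (pray F c d i ω).s k)| ≤ r ^ 2 := by
    intro k
    rw [abs_mul, sq]
    exact mul_le_mul (hy k) (hs k) (abs_nonneg _) r0.le
  have q3 : |(X - ⌊X⌋) * Hc F c i| ≤ Hc F c i := by
    rw [abs_mul, abs_of_pos hH, abs_of_nonneg (by linarith)]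
    nlinarith
  refine (abs_add_le _ _).trans ?_
  have := (abs_add_le (((nray F c i ω).y 0 - (pray F c d i ω).y 0) * ((nray F c i ω).s 0 - (pray F c d i ω).s 0))
    (((nray F c i ω).y 1 - (pray F c d i ω).y 1) * ((nray F c i ω).s 1 - (pray F c d i ω).s 1)))
  linarith [q 0, q 1]

/-! ### tameness -/

/-- the flags of tubes below the planks -/
noncomputable def toF : Vale.Agent.P122.E.Flg K where
  C := F.C
  S := F.S
  n := F.n
  L_eq := F.L_eq
  s := fun i => (F.s i).f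
  slp := fun i => slp' (F.slp i)
  N := fun c i ω => bb (F.N c i ω)
  root := fun i ω h => F.root i ω h
  top := fun i ω h => (F.top i ω h).1
  step := fun i ω h c hc => ⟨(F.step i ω h c hc).1, by
    have h1 := (F.step i ω h c hc).2
    show bb (F.N (c + 1) i ω) = _
    conv_lhs => rw [h1]
    rfl⟩

theorem tame_bb (hK : 1 ≤ K) {c : ℕ} (hc : c ≤ K) : Tame (S := F.S) fun i ω => bb (F.N c i ω) :=
  Vale.Agent.P122.K931.tame_N (toF F) hK hc

theorem tame_of_hc {S : Sys} {α β : Type*} {X : S.RV α} {Y : S.RV β} (hY : Tame Y) (c0 : ℝ)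
    (h : ∀ᶠ i in (uf : Filter ℕ), Stk.hc (S.P i) (X i) (Y i) ≤ c0) : Tame X := by
  obtain ⟨C, hC⟩ := hY
  refine ⟨C + |c0|, ?_⟩
  filter_upwards [hC, h, S.nm_tendsto.eventually_ge_atTop 1] with i h1 h2 h3
  have h4 : (S.P i).H (X i) ≤ (S.P i).H (fun ω => (X i ω, Y i ω)) :=
    Stk.H_mono' (S.P i) fun ω ω' _ _ e => congrArg Prod.fst e
  have h5 : Stk.hc (S.P i) (X i) (Y i) = (S.P i).H (fun ω => (X i ω, Y i ω)) - (S.P i).H (Y i) := rfl
  have h6 : c0 ≤ |c0| * S.nm i := (le_abs_self c0).trans (le_mul_of_one_le_right (abs_nonneg _) h3)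
  have h7 : (C + |c0|) * S.nm i = C * S.nm i + |c0| * S.nm i := by ring
  rw [h7]
  linarith

theorem tame_wK (hK : 1 ≤ K) : Tame (S := F.S) fun i ω => (F.N K i ω).w := by
  refine Vale.Agent.P122.K931.tame_int (Vale.Agent.P122.K931.bd_2K (toF F) hK) ⌈F.C⌉₊ _
    (Eventually.of_forall fun i ω hω => ?_)
  have h := (F.top i ω hω).2
  have h1 : (1:ℝ) ≤ 2 ^ (F.h * F.n i) := one_le_pow₀ (by norm_num)
  calc |((F.N K i ω).w : ℝ)| ≤ |((F.N K i ω).w : ℝ)| * 2 ^ (F.h * F.n i) := le_mul_of_one_le_right (abs_nonneg _) h1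
    _ ≤ F.C * 2 ^ (2 * K * F.n i) := h
    _ ≤ (⌈F.C⌉₊ : ℝ) * 2 ^ (2 * K * F.n i) := mul_le_mul_of_nonneg_right (Nat.le_ceil _) (by positivity)

/-- the planks are tame -/
theorem tame_N (hK : 1 ≤ K) {c : ℕ} (hc : c ≤ K) : Tame (F.N c) := by
  have t1 := tame_bb F hK hc
  have t2 := tame_bb F hK (le_refl K)
  have t3 := tame_wK F hK
  have tY := (t2.pr t3).pr t1
  obtain ⟨B, hB⟩ := exists_nat_ge (2 * ((1 + 2 * ((F.C + 2) * K * F.C + F.C + F.C ^ 2)) * ((K : ℝ) - c)))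
  refine tame_of_hc tY (Real.log (((2 * B + 1 : ℕ) : ℝ))) (Eventually.of_forall fun i => ?_)
  refine Stk.hc_le_log (F.S.P i) _ _ _ fun ω hω => ?_
  classical
  refine ⟨(Finset.Icc ((F.N c i ω).w - B) ((F.N c i ω).w + B)).image
    fun w => (⟨(F.N c i ω).τ, (F.N c i ω).o, (F.N c i ω).T, w⟩ : Nd), ?_, fun ω' hω' e => ?_⟩
  · refine Finset.card_image_le.trans ?_
    rw [Int.card_Icc]
    omega
  · simp only [pr_apply, Prod.mk.injEq] at e
    obtain ⟨⟨e1, e2⟩, e3⟩ := e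
    have g1 := (cn F i ω hω).zz_near (F.slp i) (one_le_sh F i) (le_refl c) hc (le_refl K)
    have g2 := (cn F i ω' hω').zz_near (F.slp i) (one_le_sh F i) (le_refl c) hc (le_refl K)
    have eN : F.N K i ω' = F.N K i ω := by
      have a1 : (F.N K i ω').τ = (F.N K i ω).τ := congrArg Vale.Agent.P122.C2.Nd.τ e1
      have a2 : (F.N K i ω').o = (F.N K i ω).o := congrArg Vale.Agent.P122.C2.Nd.o e1
      have a3 : (F.N K i ω').T = (F.N K i ω).T := congrArg Vale.Agent.P122.C2.Nd.T e1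
      exact Nd.ext a1 a2 a3 e2
    have b1 : (F.N c i ω').τ = (F.N c i ω).τ := congrArg Vale.Agent.P122.C2.Nd.τ e3
    have b2 : (F.N c i ω').o = (F.N c i ω).o := congrArg Vale.Agent.P122.C2.Nd.o e3
    have b3 : (F.N c i ω').T = (F.N c i ω).T := congrArg Vale.Agent.P122.C2.Nd.T e3
    rw [e3, eN] at g2
    have hp : (0:ℝ) < 2 ^ ((F.s i).h * F.n i) := by positivity
    have ez : SIG.zz (F.n i) (F.s i).h c (Vale.Agent.P122.H474.ps (F.n i) c (bb (F.N c i ω)))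
          (Vale.Agent.P122.H474.tm (F.n i) c (bb (F.N c i ω))) (F.N c i ω') -
        SIG.zz (F.n i) (F.s i).h c (Vale.Agent.P122.H474.ps (F.n i) c (bb (F.N c i ω)))
          (Vale.Agent.P122.H474.tm (F.n i) c (bb (F.N c i ω))) (F.N c i ω) =
        (((F.N c i ω').w : ℝ) - (F.N c i ω).w) * 2 ^ ((F.s i).h * F.n i) := by
      unfold SIG.zz
      rw [b1]
      ring
    have g3 : |(((F.N c i ω').w : ℝ) - (F.N c i ω).w) * 2 ^ ((F.s i).h * F.n i)| ≤
        (2 * ((1 + 2 * ((F.C + 2) * K * F.C + F.C + F.C ^ 2)) * ((K : ℝ) - c))) * 2 ^ ((F.s i).h * F.n i) := by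
      rw [← ez]
      rw [abs_le] at g1 g2 ⊢
      constructor <;> linarith [g1.1, g1.2, g2.1, g2.2]
    rw [abs_mul, abs_of_pos hp] at g3
    have g4 := le_of_mul_le_mul_right g3 hp
    have g5 : |(((F.N c i ω').w : ℝ) - (F.N c i ω).w)| ≤ (B : ℝ) := g4.trans hB
    have g6 : |(F.N c i ω').w - (F.N c i ω).w| ≤ (B : ℤ) := by exact_mod_cast g5
    rw [Finset.mem_image]
    refine ⟨(F.N c i ω').w, ?_, ?_⟩
    · have := abs_le.1 g6
      rw [Finset.mem_Icc]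
      constructor <;> linarith [this.1, this.2]
    · exact Nd.ext b1.symm b2.symm b3.symm rfl

end Vale.Agent.P106.R.H466
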